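import Crest.Agent.X261.Frb.Main
import Crest.Agent.X261.Jet.TbA
import Crest.Agent.X261.Ans.Man3
import Crest.Agent.X261.Bog.Sat

/-!
# Row 261, FOL (helper38), file `Loc`: the form `dπ₁ ∧ … ∧ dπ_p`

* `dW_comp`  : chain rule; `hm_dW` : holomorphy; `tube_ne` : no zeros on a tube;
* `tube_par` : the forms of two tubes are proportional, also after a translation by `g : G`;
* `Mer`      : local holomorphic forms proportional to `dπ`; `mer_tube`, `Mer.par`.
-/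

set_option autoImplicit false
set_option linter.unusedSectionVars false

open Set Filter Topology Matrix
open scoped Pointwise

namespace Crest.Agent.X261.Fol

open Crest.Agent.R275.Geo Crest.Agent.R275.Core144
open Crest.Agent.R273.Fock_243 (FI Gam)
open Crest.Agent.R273.Map_835
open Crest.Agent.R281.Kd_22
open Crest.Agent.X261.Top
open Crest.Agent.X261.Frb.Main (row dW_eq wdg_row_ne tube_diff)
open Crest.Agent.X261.Jet.Tb (Gam_wdg)
open Crest.Agent.X261.Bog (Par par_smul hm_det hm_Gam hm_sum)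

noncomputable section

variable {n p : ℕ}

/-! ### linear algebra -/

theorem row_comp (L : Cn n →L[ℂ] Cn p) (T : Cn n →L[ℂ] Cn n) (k : Fin p) :
    row (L.comp T) k = (mt T)ᵀ *ᵥ row L k := by
  funext a
  have h := congrFun (congrFun (mt_comp L T) k) a
  rw [Matrix.mul_apply] at h
  show mt (L.comp T) k a = ∑ b, (mt T)ᵀ a b * row L k b
  rw [h]
  exact Finset.sum_congr rfl fun b _ => mul_comm _ _

theorem wdg_row_left (C : Cn p →L[ℂ] Cn p) (L : Cn n →L[ℂ] Cn p) :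
    wdg (row (C.comp L)) = (mt C).det • wdg (row L) := by
  funext S
  rw [Pi.smul_apply, smul_eq_mul]
  unfold wdg
  split_ifs with h
  · rw [← Matrix.det_mul]
    congr 1
    ext k l
    have h1 := congrFun (congrFun (mt_comp C L) k) (S.orderEmbOfFin h l)
    rw [Matrix.mul_apply] at h1 ⊢
    exact h1
  · rw [mul_zero]

theorem wdg_of_ker {L L' : Cn n →L[ℂ] Cn p} (hL : Function.Surjective L)
    (h : ∀ v, L v = 0 → L' v = 0) : ∃ c : ℂ, wdg (row L') = c • wdg (row L) := by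
  obtain ⟨σ, hσ⟩ := L.exists_rightInverse_of_surjective (LinearMap.range_eq_top.2 hL)
  have h1 : L' = (L'.comp σ).comp L := by
    refine ContinuousLinearMap.ext fun v => ?_
    have h2 : L (v - σ (L v)) = 0 := by
      have h3 : L (σ (L v)) = L v := DFunLike.congr_fun hσ (L v)
      rw [map_sub, h3, sub_self]
    have h4 := h _ h2
    rw [map_sub, sub_eq_zero] at h4
    exact h4
  exact ⟨(mt (L'.comp σ)).det, by rw [← wdg_row_left, ← h1]⟩

/-- a function that is constant on the fibre of a submersion kills its tangent space -/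
theorem ker_le {f g : Cn n → Cn p} {f' g' : Cn n →L[ℂ] Cn p} {a : Cn n}
    (hf : HasStrictFDerivAt f f' a) (hs : Function.Surjective f') (hg : HasFDerivAt g g' a)
    (h : ∀ᶠ z in 𝓝 a, f z = f a → g z = g a) (v : Cn n) (hv : f' v = 0) : g' v = 0 := by
  have hr : f'.range = ⊤ := LinearMap.range_eq_top.2 hs
  have h1 := (hf.to_implicitFunction hr).hasFDerivAt
  have h0 := hf.implicitFunction_apply_image hr
  have h2 : HasFDerivAt (g ∘ hf.implicitFunction f f' hr (f a)) (g'.comp f'.ker.subtypeL) 0 :=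
    HasFDerivAt.comp _ (by rw [h0]; exact hg) h1
  have h3 : Tendsto (hf.implicitFunction f f' hr (f a)) (𝓝 0) (𝓝 a) := by
    have := h1.continuousAt.tendsto
    rwa [h0] at this
  have h4 : ∀ᶠ w in 𝓝 (0 : f'.ker), f (hf.implicitFunction f f' hr (f a) w) = f a :=
    (Continuous.prodMk_right (f a)).continuousAt.tendsto.eventually (hf.map_implicitFunction_eq hr)
  have h5 : (g ∘ hf.implicitFunction f f' hr (f a)) =ᶠ[𝓝 0] fun _ => g a := by
    filter_upwards [h3.eventually h, h4] with w h6 h7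
    exact h6 h7
  have h6 := h2.unique ((hasFDerivAt_const (g a) (0 : f'.ker)).congr_of_eventuallyEq h5)
  exact DFunLike.congr_fun h6 ⟨v, hv⟩

/-! ### the chain rule -/

variable {M N : Type} [TopologicalSpace M] [TopologicalSpace N] {B : Atl n M} {B' : Atl n N}

theorem hasF_comp {q : N → M} (hq : HolMap B' B q) {i : B'.ι} {j : B.ι} {y : N}
    (hi : y ∈ (B'.e i).source) (hj : q y ∈ (B.e j).source) {f : M → Cn p}
    (hf : DifferentiableAt ℂ (fun z => f ((B.e j).symm z)) (B.e j (q y))) :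
    HasFDerivAt (fun z => f (q ((B'.e i).symm z)))
      ((fderiv ℂ (fun z => f ((B.e j).symm z)) (B.e j (q y))).comp
        (fderiv ℂ (rd B' B q i j) (B'.e i y))) (B'.e i y) := by
  have hval : rd B' B q i j (B'.e i y) = B.e j (q y) := by
    simp only [R273.Map_835.rd]
    rw [(B'.e i).left_inv hi]
  have h1 := HasFDerivAt.comp (B'.e i y) (g := fun z => f ((B.e j).symm z)) (f := rd B' B q i j)
    (by rw [hval]; exact hf.hasFDerivAt) (hq.diffAt (mem_dm hi hj)).hasFDerivAt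
  refine h1.congr_of_eventuallyEq ?_
  filter_upwards [(hq.isOpen_dm i j).mem_nhds (mem_dm hi hj)] with z hz
  simp only [R273.Map_835.rd, Function.comp]
  rw [(B.e j).left_inv hz.2]

/-- chain rule for `dW` -/
theorem dW_comp {q : N → M} (hq : HolMap B' B q) {i : B'.ι} {j : B.ι} {y : N}
    (hi : y ∈ (B'.e i).source) (hj : q y ∈ (B.e j).source) {f : M → Cn p}
    (hf : DifferentiableAt ℂ (fun z => f ((B.e j).symm z)) (B.e j (q y))) :
    dW B' i (fun w => f (q w)) y = Gam (Jp B' B q i j y)ᵀ *ᵥ dW B j f (q y) := by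
  have h := hasF_comp hq hi hj hf
  rw [dW_eq (f := fun w => f (q w)) h.differentiableAt, h.fderiv, dW_eq hf, Gam_wdg, Jp_eq]
  congr 1
  funext k
  exact row_comp _ _ k

theorem holV_an {U : Set M} (hU : IsOpen U) {f : M → Cn p} (hf : HolV B U f) {i : B.ι} {y : M}
    (hy : y ∈ U) (hi : y ∈ (B.e i).source) :
    AnalyticAt ℂ (fun z => f ((B.e i).symm z)) (B.e i y) :=
  Crest.Agent.R266.SCV.analyticOnNhd_of_differentiableOn (isOpen_ti hU) (hf i) _
    ⟨(B.e i).map_source hi, by rw [mem_preimage, (B.e i).left_inv hi]; exact hy⟩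

theorem hm_dW {U : Set M} (hU : IsOpen U) {f : M → Cn p} (hf : HolV B U f) {i : B.ι} {y : M}
    (hy : y ∈ U) (hi : y ∈ (B.e i).source) (S : FI n) : Hm B (fun w => dW B i f w S) y := by
  have h1 : (fun w => wdg (row (fderiv ℂ (fun z => f ((B.e i).symm z)) (B.e i w))) S) =ᶠ[𝓝 y]
      fun w => dW B i f w S := by
    filter_upwards [hU.mem_nhds hy, (B.e i).open_source.mem_nhds hi] with w h1 h2
    rw [dW_eq (holV_an hU hf h1 h2).differentiableAt]
  refine Hm.congr ?_ h1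
  unfold wdg
  by_cases h : S.card = p
  · simp only [dif_pos h]
    refine hm_det fun k l => ?_
    have h2 := (holV_an hU hf hy hi).fderiv
    refine hm_chart (φ := fun z => (fderiv ℂ (fun z => f ((B.e i).symm z)) z
      (EuclideanSpace.single (S.orderEmbOfFin h l) 1)) k) hi ?_
    exact ((EuclideanSpace.proj k : Cn p →L[ℂ] ℂ).analyticAt _).comp
      (((ContinuousLinearMap.apply ℂ (Cn p)
        (EuclideanSpace.single (S.orderEmbOfFin h l) (1 : ℂ) : Cn n)).analyticAt _).comp h2)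
  · simp only [dif_neg h]
    exact Hm.const 0 y

theorem hm_pull {q : N → M} (hq : HolMap B' B q) {f : M → ℂ} {y : N} (hf : Hm B f (q y)) :
    Hm B' (fun w => f (q w)) y := by
  obtain ⟨j, hj⟩ := B.cover (q y)
  obtain ⟨i, hi⟩ := B'.cover y
  obtain ⟨V, hV, hVo, hyV⟩ := eventually_nhds_iff.1 hf.ev
  have h1 : HolAt B j V f := holAt_of_hm fun x _ hx => hV x hx
  exact hm_of_holAt (hq.comp_holAt (i := i) h1)
    ((hVo.inter (B.e j).open_source).preimage hq.cont) hi ⟨hyV, hj⟩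

theorem hm_pb {q : N → M} (hq : HolMap B' B q) {i : B'.ι} {j : B.ι} {y : N}
    (hi : y ∈ (B'.e i).source) (hj : q y ∈ (B.e j).source) {τ : M → FI n → ℂ}
    (hτ : ∀ S, Hm B (fun w => τ w S) (q y)) (S : FI n) :
    Hm B' (fun w => (Gam (Jp B' B q i j w)ᵀ *ᵥ τ (q w)) S) y :=
  hm_sum Finset.univ fun T _ => (hm_Gam (fun a b => hm_of_holAt (hq.holAt_Jp i j b a)
    ((B.e j).open_source.preimage hq.cont) hi hj) S T).mul (hm_pull hq (hτ T))

/-! ### tubes -/

variable {G : Type} [Group G] [MulAction G M] (𝒯 : Tube B G p)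

theorem tube_an {x y : M} (hx : x ∈ 𝒯.M0) (hy : y ∈ 𝒯.T x) {i : B.ι} (hi : y ∈ (B.e i).source) :
    AnalyticAt ℂ (fun z => 𝒯.π x ((B.e i).symm z)) (B.e i y) :=
  holV_an (𝒯.T_opn x hx) (𝒯.π_hol x hx) hy hi

theorem tube_surj {x y : M} (hx : x ∈ 𝒯.M0) (hy : y ∈ 𝒯.T x) {i : B.ι}
    (hi : y ∈ (B.e i).source) :
    Function.Surjective (fderiv ℂ (fun z => 𝒯.π x ((B.e i).symm z)) (B.e i y)) :=
  Crest.Agent.R281.ThnM_280.surj_of_not_crit (A := B) hy
    (by rw [𝒯.π_subm x hx]; exact notMem_empty y) hi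

theorem tube_ne {x y : M} (hx : x ∈ 𝒯.M0) (hy : y ∈ 𝒯.T x) {i : B.ι} (hi : y ∈ (B.e i).source) :
    dW B i (𝒯.π x) y ≠ 0 := by
  rw [dW_eq (tube_an 𝒯 hx hy hi).differentiableAt]
  exact wdg_row_ne (Nat.add_sub_cancel' (Ans.Brg.tube_le 𝒯 hx)) (tube_surj 𝒯 hx hy hi)

/-- the forms of two tubes are proportional -/
theorem tube_par (g : G) (hg : HolMap B B fun y => g • y) {x x' y : M} (hx : x ∈ 𝒯.M0)
    (hx' : x' ∈ 𝒯.M0) (hy : y ∈ 𝒯.T x) (hy' : g • y ∈ 𝒯.T x') {i : B.ι}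
    (hi : y ∈ (B.e i).source) :
    ∃ c : ℂ, dW B i (fun w => 𝒯.π x' (g • w)) y = c • dW B i (𝒯.π x) y := by
  obtain ⟨j, hj⟩ := B.cover (g • y)
  have h1 := hasF_comp hg hi hj (tube_an 𝒯 hx' hy' hj).differentiableAt
  have h2 := tube_an 𝒯 hx hy hi
  rw [dW_eq (f := fun w => 𝒯.π x' (g • w)) h1.differentiableAt, dW_eq h2.differentiableAt]
  refine wdg_of_ker (tube_surj 𝒯 hx hy hi) (ker_le h2.hasStrictFDerivAt (tube_surj 𝒯 hx hy hi)
    h1.differentiableAt.hasFDerivAt ?_)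
  filter_upwards [(ev_iff hi).1 ((𝒯.T_opn x hx).mem_nhds hy)] with z hz h3
  rw [(B.e i).left_inv hi] at h3 ⊢
  have h4 : (B.e i).symm z ∈ 𝒯.W y := by
    rw [𝒯.π_fib x hx y hy]
    exact ⟨hz, h3⟩
  have h5 : g • (B.e i).symm z ∈ 𝒯.W (g • y) := by
    rw [𝒯.W_inv g y (𝒯.T_sub x hx hy)]
    exact smul_mem_smul_set h4
  rw [𝒯.π_fib x' hx' _ hy'] at h5
  exact h5.2

/-- local holomorphic forms proportional to `dπ` -/
structure Mer (i : B.ι) (U : Set M) (τ : M → FI n → ℂ) : Prop where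
  op : IsOpen U
  sub : U ⊆ (B.e i).source
  hol : ∀ S, HolAt B i U fun y => τ y S
  deg : ∀ y S, S.card ≠ p → τ y S = 0
  nf : ∀ V : Set M, IsOpen V → V.Nonempty → V ⊆ U → ∃ y ∈ V, τ y ≠ 0
  gen : ∀ x' ∈ 𝒯.M0, ∀ y ∈ U ∩ 𝒯.T x', ∃ c : ℂ, τ y = c • dW B i (𝒯.π x') y

theorem exists_mer (x : M) : ∃ i U τ, x ∈ U ∧ Mer 𝒯 i U τ := by
  obtain ⟨i, U, τ, h1, h2, h3, h4, h5, h6, h7⟩ := 𝒯.mer x
  exact ⟨i, U, τ, h2, h1, h3, h4, h5, h6, h7⟩

theorem mer_tube {x : M} (hx : x ∈ 𝒯.M0) (i : B.ι) :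
    Mer 𝒯 i (𝒯.T x ∩ (B.e i).source) (dW B i (𝒯.π x)) where
  op := (𝒯.T_opn x hx).inter (B.e i).open_source
  sub := inter_subset_right
  hol S := holAt_of_hm fun _ _ hy => hm_dW (𝒯.T_opn x hx) (𝒯.π_hol x hx) hy.1 hy.2 S
  deg _ _ h := dif_neg h
  nf _ _ := fun ⟨y, hy⟩ h => ⟨y, hy, tube_ne 𝒯 hx (h hy).1 (h hy).2⟩
  gen x' hx' y hy := by
    have h1 : HolMap B B fun y => (1 : G) • y := by
      simp only [one_smul]
      exact holMap_id B
    obtain ⟨c, hc⟩ := tube_par 𝒯 1 h1 hx' hx hy.2 (by rw [one_smul]; exact hy.1.1) hy.1.2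
    simp only [one_smul] at hc
    exact ⟨c, hc⟩

variable {𝒯}

theorem Mer.hm {i : B.ι} {U : Set M} {τ : M → FI n → ℂ} (h : Mer 𝒯 i U τ) {y : M} (hy : y ∈ U)
    (S : FI n) : Hm B (fun w => τ w S) y := hm_of_holAt (h.hol S) h.op (h.sub hy) hy

theorem Mer.not_flat {i : B.ι} {U : Set M} {τ : M → FI n → ℂ} (h : Mer 𝒯 i U τ) {y : M}
    (hy : y ∈ U) : ¬ ∀ᶠ w in 𝓝 y, τ w = 0 := by
  intro h0
  obtain ⟨V, hV, hVo, hyV⟩ := eventually_nhds_iff.1 (h0.and (h.op.mem_nhds hy))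
  obtain ⟨w, hw, h1⟩ := h.nf V hVo ⟨y, hyV⟩ fun w hw => (hV w hw).2
  exact h1 (hV w hw).1

/-- two local forms are parallel, also after a translation -/
theorem Mer.par {i j : B.ι} {U U' : Set M} {τ τ' : M → FI n → ℂ} (h : Mer 𝒯 i U τ)
    (h' : Mer 𝒯 j U' τ') (g : G) (hg : HolMap B B fun y => g • y) {y : M} (hy : y ∈ U)
    (hy' : g • y ∈ U') : Par (τ y) (Gam (Jp B B (fun y => g • y) i j y)ᵀ *ᵥ τ' (g • y)) := by
  intro S T
  have c1 := fun S => (h.hm hy S).cont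
  have c2 := fun S => (hm_pb hg (h.sub hy) (h'.sub hy') (h'.hm hy') S).cont
  refine tendsto_nhds_unique_of_frequently_eq ((c1 S).mul (c2 T)) ((c1 T).mul (c2 S)) ?_
  have h1 : ∃ᶠ w in 𝓝 y, w ∈ 𝒯.M0 := mem_closure_iff_frequently.1 (Ans.Brg.tube_dense 𝒯 y)
  refine (h1.and_eventually ((h.op.eventually_mem hy).and
    (hg.cont.continuousAt.eventually (h'.op.mem_nhds hy')))).mono ?_
  rintro w ⟨hw, hU, hU'⟩
  have hgw := 𝒯.inv g w hw
  obtain ⟨c, hc⟩ := h.gen w hw w ⟨hU, 𝒯.T_mem w hw⟩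
  obtain ⟨c', hc'⟩ := h'.gen _ hgw _ ⟨hU', 𝒯.T_mem _ hgw⟩
  obtain ⟨d, hd⟩ := tube_par 𝒯 g hg hw hgw (𝒯.T_mem w hw) (𝒯.T_mem _ hgw) (h.sub hU)
  have h2 := dW_comp hg (h.sub hU) (h'.sub hU')
    (tube_an 𝒯 hgw (𝒯.T_mem _ hgw) (h'.sub hU')).differentiableAt
  show τ w S * (Gam (Jp B B (fun y => g • y) i j w)ᵀ *ᵥ τ' (g • w)) T =
    τ w T * (Gam (Jp B B (fun y => g • y) i j w)ᵀ *ᵥ τ' (g • w)) S
  rw [hc', Matrix.mulVec_smul, ← h2, hd, hc]
  simp only [Pi.smul_apply, smul_eq_mul]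
  ring

end

end Crest.Agent.X261.Fol
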