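import Crest.Agent.X261.Top.Defs
import Crest.Agent.X261.Cov.A
import Crest.Agent.R273.Fam_835

/-!
# Row 261, FOL (text of helper52, landed by helper38), file `Ref`: coverings do not depend on the refinement of the atlas

* `refH D R F : (ref D R).cov F ≃ₜ D.cov F`, compatible with `pr`, `co`, `pt` and the deck group;
* `connected_ref`, `simplyConnected_ref`, `push_ref`.
-/

set_option autoImplicit false
set_option linter.unusedSectionVars false

open Set Filter Topology

namespace Crest.Agent.X261.Fol

open Crest.Agent.R275.Geo Crest.Agent.R273.UCov_914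
open Crest.Agent.R273.PB_835 (Ref)
open Crest.Agent.R273.Map_835 (HolMap)
open Crest.Agent.X261.Top (ref)
open Crest.Agent.X261.Cov.A (push)

noncomputable section

variable {n : ℕ} {X : Type} [TopologicalSpace X] {A A' : Atl n X} {G : Type} [Group G]
  (D : MonD A G) (R : Ref A' A id) {F : Type} [MulAction G F]

theorem rsub {i : A'.ι} {x : X} (h : x ∈ (A'.e i).source) : x ∈ (A.e (R.r i)).source := R.sub i x h

theorem ref_c (i j : A'.ι) (x : X) : (ref D R).c i j x = D.c (R.r i) (R.r j) x := rfl

theorem push_ref {G' : Type} [Group G'] (φ : G →* G') :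
    push (ref D R) φ = ref (push D φ) R := rfl

/-- from the fine atlas to the coarse atlas -/
def refU (e : (ref D R).cov F) : D.cov F :=
  D.pt (R.r (A'.cover ((ref D R).pr e)).choose)
    ((ref D R).co (A'.cover ((ref D R).pr e)).choose e) ((ref D R).pr e)

/-- from the coarse atlas to the fine atlas -/
def refD (e : D.cov F) : (ref D R).cov F :=
  (ref D R).pt (A'.cover (D.pr e)).choose (D.co (R.r (A'.cover (D.pr e)).choose) e) (D.pr e)

@[simp] theorem pr_refU (e : (ref D R).cov F) : D.pr (refU D R e) = (ref D R).pr e := rfl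

@[simp] theorem pr_refD (e : D.cov F) : (ref D R).pr (refD D R e) = D.pr e := rfl

variable {D R}

theorem refU_eq {i : A'.ι} {e : (ref D R).cov F} (h : (ref D R).pr e ∈ (A'.e i).source) :
    refU D R e = D.pt (R.r i) ((ref D R).co i e) ((ref D R).pr e) := by
  have h0 := (A'.cover ((ref D R).pr e)).choose_spec
  rw [refU, D.pt_eq _ (rsub R h0) (rsub R h), (ref D R).co_eq h0 h]
  rfl

theorem refD_eq {i : A'.ι} {e : D.cov F} (h : D.pr e ∈ (A'.e i).source) :
    refD D R e = (ref D R).pt i (D.co (R.r i) e) (D.pr e) := by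
  have h0 := (A'.cover (D.pr e)).choose_spec
  rw [refD, (ref D R).pt_eq _ h0 h, D.co_eq (rsub R h0) (rsub R h)]
  rfl

theorem co_refU {i : A'.ι} {e : (ref D R).cov F} (h : (ref D R).pr e ∈ (A'.e i).source) :
    D.co (R.r i) (refU D R e) = (ref D R).co i e := by
  rw [refU_eq h, D.co_pt _ (rsub R h)]

theorem co_refD {i : A'.ι} {e : D.cov F} (h : D.pr e ∈ (A'.e i).source) :
    (ref D R).co i (refD D R e) = D.co (R.r i) e := by
  rw [refD_eq h, (ref D R).co_pt _ h]

theorem refU_pt {i : A'.ι} (v : F) {x : X} (h : x ∈ (A'.e i).source) :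
    refU D R ((ref D R).pt i v x) = D.pt (R.r i) v x := by
  rw [refU_eq (i := i) (e := (ref D R).pt i v x) h, (ref D R).co_pt _ h, MonD.pr_pt]

theorem refD_pt {i : A'.ι} (v : F) {x : X} (h : x ∈ (A'.e i).source) :
    refD D R (D.pt (R.r i) v x) = (ref D R).pt i v x := by
  rw [refD_eq (i := i) (e := D.pt (R.r i) v x) h, D.co_pt _ (rsub R h), MonD.pr_pt]

theorem refD_refU (e : (ref D R).cov F) : refD D R (refU D R e) = e := by
  have h0 := (A'.cover ((ref D R).pr e)).choose_spec
  rw [refU_eq h0, refD_pt _ h0, (ref D R).pt_co h0]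

theorem refU_refD (e : D.cov F) : refU D R (refD D R e) = e := by
  have h0 := (A'.cover (D.pr e)).choose_spec
  rw [refD_eq h0, refU_pt _ h0, D.pt_co (rsub R h0)]

theorem continuous_refU : Continuous (refU D R (F := F)) := by
  refine continuous_iff_continuousAt.2 fun e => ?_
  obtain ⟨i, hi⟩ := A'.cover ((ref D R).pr e)
  have h1 : ContinuousAt (fun e' : (ref D R).cov F =>
      D.pt (R.r i) ((ref D R).co i e) ((ref D R).pr e')) e :=
    ContinuousAt.comp (g := D.pt (R.r i) ((ref D R).co i e))
      ((D.continuousOn_pt _ _).continuousAt ((A.e _).open_source.mem_nhds (rsub R hi)))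
      (ref D R).continuous_pr.continuousAt
  refine h1.congr ?_
  filter_upwards [(ref D R).co_eventually hi] with e' he'
  rw [refU_eq he'.1, he'.2]

theorem continuous_refD : Continuous (refD D R (F := F)) := by
  refine continuous_iff_continuousAt.2 fun e => ?_
  obtain ⟨i, hi⟩ := A'.cover (D.pr e)
  have h1 : ContinuousAt (fun e' : D.cov F => (ref D R).pt i (D.co (R.r i) e) (D.pr e')) e :=
    ContinuousAt.comp (g := (ref D R).pt i (D.co (R.r i) e))
      (((ref D R).continuousOn_pt _ _).continuousAt ((A'.e _).open_source.mem_nhds hi))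
      D.continuous_pr.continuousAt
  refine h1.congr ?_
  filter_upwards [D.co_eventually (rsub R hi),
    D.continuous_pr.continuousAt.eventually ((A'.e i).open_source.mem_nhds hi)] with e' he' h2
  rw [refD_eq h2, he'.2]

variable (D R) in
/-- the two coverings are homeomorphic over the base -/
def refH (F : Type) [MulAction G F] : (ref D R).cov F ≃ₜ D.cov F where
  toFun := refU D R
  invFun := refD D R
  left_inv := refD_refU
  right_inv := refU_refD
  continuous_toFun := continuous_refU
  continuous_invFun := continuous_refD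

theorem refU_deck (g : G) (e : (ref D R).cov G) : refU D R (g • e) = g • refU D R e := by
  obtain ⟨i, hi⟩ := A'.cover ((ref D R).pr e)
  refine D.ext_co (i := R.r i) (rsub R hi) rfl ?_
  rw [co_refU (e := g • e) hi, D.co_deck, (ref D R).co_deck, co_refU hi]

theorem refD_deck (g : G) (e : D.cov G) : refD D R (g • e) = g • refD D R e := by
  rw [← refU_refD (R := R) e, ← refU_deck, refD_refU, refD_refU]

/-- a continuous map over a holomorphic map of the bases is holomorphic -/
theorem holMap_lift {m : ℕ} {Y : Type} [TopologicalSpace Y] {B : Atl m Y} {f : Y → D.cov F}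
    (hc : Continuous f) (h : HolMap B A fun y => D.pr (f y)) : HolMap B (D.atl F) f :=
  ⟨hc, fun i q => (h.hol i q.1).mono fun _ hz => ⟨hz.1, hz.2.1⟩⟩

variable (D) in
theorem holMap_pr : HolMap (D.atl F) A D.pr := by
  refine ⟨D.continuous_pr, fun q j => ?_⟩
  exact A.holo q.1 j

theorem holMap_refU (h : HolMap A' A id) : HolMap ((ref D R).atl F) (D.atl F) (refU D R) :=
  holMap_lift continuous_refU (h.comp (holMap_pr (ref D R)))

theorem holMap_refD (h : HolMap A A' id) : HolMap (D.atl F) ((ref D R).atl F) (refD D R) :=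
  holMap_lift continuous_refD (h.comp (holMap_pr D))

theorem holMap_deck (g : G) : HolMap (D.atl G) (D.atl G) fun y => g • y :=
  holMap_lift (continuous_const_smul g) (holMap_pr D)

variable (D R) in
theorem connected_ref [ConnectedSpace (D.cov F)] : ConnectedSpace ((ref D R).cov F) :=
  (refH D R F).symm.surjective.connectedSpace (refH D R F).symm.continuous

variable (D R) in
theorem simplyConnected_ref [SimplyConnectedSpace (D.cov F)] :
    SimplyConnectedSpace ((ref D R).cov F) :=
  (refH D R F).toHomotopyEquiv.simplyConnectedSpace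

end

end Crest.Agent.X261.Fol
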