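import Crest.Agent.X261.Fol.Tr
import Crest.Agent.X261.Fol.Ref
import Crest.Agent.X261.E0.Defs

/-!
# Row 261, FOL (helper38), file `Main`: `FolStmt`

The local forms of a tube structure on the cover descend to a line field `lf` on the base; its
saturation (helper63) is the line bundle `L ⊆ Ω^p`.
-/

set_option autoImplicit false
set_option linter.unusedSectionVars false

open Set Filter Topology Matrix

namespace Crest.Agent.X261.Fol

open Crest.Agent.R275.Geo Crest.Agent.R275.Core144 Crest.Agent.R273.UCov_914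
open Crest.Agent.R273.Fock_243 (FI Gam)
open Crest.Agent.R273.Map_835
open Crest.Agent.R273.PB_835 (LBih Ref)
open Crest.Agent.R281.Kd_22
open Crest.Agent.X261.Top
open Crest.Agent.X261.Bog (LF Sat exists_sat)

noncomputable section

variable {n p : ℕ} {X : Type} [TopologicalSpace X] {A : Atl n X} {G : Type} [Group G]
  {D : MonD A G}

/-- the line field on the base defined by a tube structure on the cover -/
def lf (𝒯 : Tube (D.atl G) G p) : LF A p where
  κ := {t : (D.atl G).ι × Set (D.cov G) × (D.cov G → FI n → ℂ) // Mer 𝒯 t.1 t.2.1 t.2.2}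
  ch a := a.1.1.1
  U a := (A.e a.1.1.1).source ∩ D.pt a.1.1.1 a.1.1.2 ⁻¹' a.1.2.1
  op a := (D.continuousOn_pt _ _).isOpen_inter_preimage (A.e _).open_source a.2.op
  sub _ := inter_subset_left
  cov x := by
    obtain ⟨i, -⟩ := A.cover x
    obtain ⟨q, U, τ, hx, h⟩ := exists_mer 𝒯 (D.pt i (1 : G) x)
    have h1 : D.pt i (1 : G) x ∈ D.sheet q.1 q.2 := h.sub hx
    refine ⟨⟨(q, U, τ), h⟩, h1.1, ?_⟩
    have h2 : D.pt q.1 q.2 x = D.pt i (1 : G) x := D.pt_of_mem h1
    show D.pt q.1 q.2 x ∈ U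
    rwa [h2]
  τ a x := a.1.2.2 (D.pt a.1.1.1 a.1.1.2 x)
  hm a x hx S := Hm.of_one hx.1 (a.2.hm hx.2 S a.1.1 (a.2.sub hx.2))
  deg a x _ S h := by
    by_contra h1
    exact h (a.2.deg _ S h1)
  nf a x hx h := by
    refine a.2.not_flat hx.2 ?_
    filter_upwards [(D.continuous_pr.tendsto' (D.pt a.1.1.1 a.1.1.2 x) x rfl).eventually h,
      a.2.op.mem_nhds hx.2] with w h1 h2
    rwa [D.pt_of_mem (a.2.sub h2)] at h1
  par a b x hx := by
    obtain ⟨g, hg⟩ := D.exists_deck (e := D.pt a.1.1.1 a.1.1.2 x) (e' := D.pt b.1.1.1 b.1.1.2 x) rfl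
    have h := a.2.par b.2 g (holMap_deck g) hx.1.2 (by rw [hg]; exact hx.2.2)
    rw [hg] at h
    exact h

/-- the covers of two compatible atlases -/
def refIso {A' : Atl n X} (D : MonD A G) (R : Ref A' A id) (h : HolMap A' A id)
    (h' : HolMap A A' id) : Iso ((ref D R).atl G) (D.atl G) G where
  q := refU D R
  r := refD D R
  hq := holMap_refU h
  hr := holMap_refD h'
  rq := refD_refU
  qr := refU_refD
  eqv := refU_deck

/-- the saturated foliation -/
def fol (𝒯 : Tube (D.atl G) G p) (S : Sat (lf 𝒯)) : Fol (ref D S.ref) p where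
  T := (refIso D S.ref S.bih.toHolMap S.bih'.toHolMap).pull 𝒯
  L := S.L
  e := S.e
  tom := ⟨S.hol, S.off, fun i x T h => by
    by_contra h1
    exact h (S.deg i x T h1), S.tr⟩
  cop := S.cop
  gen x hx q y hy hq := by
    have hy1 : (ref D S.ref).pr y ∈ (S.A'.e q.1).source := hq.1
    have hpt : D.pt (S.ref.r q.1) q.2 ((ref D S.ref).pr y) = refU D S.ref y := by
      rw [refU_eq hy1, hq.2]
    have hs : refU D S.ref y ∈ ((D.atl G).e (S.ref.r q.1, q.2)).source := by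
      rw [← hpt]
      exact D.pt_mem_sheet _ (rsub S.ref hy1)
    have h0 := tube_ne ((refIso D S.ref S.bih.toHolMap S.bih'.toHolMap).pull 𝒯) hx hy hq
    obtain ⟨c, h1⟩ : ∃ c : ℂ, Bog.tq S.A' A q.1 (S.ref.r q.1) ((ref D S.ref).pr y)
        (dW (D.atl G) (S.ref.r q.1, q.2) (𝒯.π (refU D S.ref x))
          (D.pt (S.ref.r q.1) q.2 ((ref D S.ref).pr y))) = c • S.e q.1 ((ref D S.ref).pr y) := by
      refine ⟨_, S.c_eq q.1 ⟨((S.ref.r q.1, q.2),
        𝒯.T (refU D S.ref x) ∩ ((D.atl G).e (S.ref.r q.1, q.2)).source,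
        dW (D.atl G) (S.ref.r q.1, q.2) (𝒯.π (refU D S.ref x))), mer_tube 𝒯 hx (S.ref.r q.1, q.2)⟩
        ((ref D S.ref).pr y) ⟨hy1, rsub S.ref hy1, ?_⟩⟩
      show D.pt (S.ref.r q.1) q.2 ((ref D S.ref).pr y) ∈
        𝒯.T (refU D S.ref x) ∩ ((D.atl G).e (S.ref.r q.1, q.2)).source
      rw [hpt]
      exact ⟨hy, hs⟩
    rw [hpt] at h1
    have h2 := dW_comp (holMap_refU (D := D) (R := S.ref) S.bih.toHolMap) hq hs
      (tube_an 𝒯 hx hy hs).differentiableAt
    have h3 : dW ((ref D S.ref).atl G) q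
        (((refIso D S.ref S.bih.toHolMap S.bih'.toHolMap).pull 𝒯).π x) y =
        c • upF (ref D S.ref) S.e q y := h2.trans h1
    have hc : c ≠ 0 := by
      rintro rfl
      rw [zero_smul] at h3
      exact h0 h3
    exact ⟨c⁻¹, inv_ne_zero hc, by rw [h3, smul_smul, inv_mul_cancel₀ hc, one_smul]⟩

/-- **FOL** -/
theorem folStmt : FolStmt := by
  intro n X _ _ _ _ A _ _ _ K G _ D _ p 𝒯
  obtain ⟨S⟩ := exists_sat (lf 𝒯)
  exact ⟨S.A', S.fin, S.ref, S.good, S.part, ⟨(E0.cmp_of_lBih S.bih' S.bih).kah K⟩, S.bih, S.bih',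
    ⟨fol 𝒯 S⟩⟩

end

end Crest.Agent.X261.Fol
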