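import Crest.Agent.X261.Fol.Loc
import Crest.Agent.R273.Fam_835

/-!
# Row 261, FOL (helper38), file `Tr`: transport of a tube structure

`Iso B' B G` is an equivariant biholomorphism, `Iso.pull` the pulled back tube structure.
-/

set_option autoImplicit false
set_option linter.unusedSectionVars false

open Set Filter Topology Matrix
open scoped Pointwise

namespace Crest.Agent.X261.Fol

open Crest.Agent.R275.Geo Crest.Agent.R275.Core144
open Crest.Agent.R273.Fock_243 (FI Gam Gam_mul Gam_one)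
open Crest.Agent.R273.Map_835
open Crest.Agent.R273.PB_835 (LBih)
open Crest.Agent.R281.Kd_22
open Crest.Agent.R281.ThnM_280 (SThM Crit)
open Crest.Agent.X261.Top Crest.Agent.X261.Ans

noncomputable section

variable {n p : ℕ} {M N : Type} [TopologicalSpace M] [TopologicalSpace N]

/-- an equivariant biholomorphism `q : N → M` with inverse `r` -/
structure Iso (B' : Atl n N) (B : Atl n M) (G : Type) [Group G] [MulAction G N] [MulAction G M] where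
  q : N → M
  r : M → N
  hq : HolMap B' B q
  hr : HolMap B B' r
  rq : ∀ y, r (q y) = y
  qr : ∀ x, q (r x) = x
  eqv : ∀ (g : G) y, q (g • y) = g • q y

namespace Iso

variable {B' : Atl n N} {B : Atl n M} {G : Type} [Group G] [MulAction G N] [MulAction G M]
  (φ : Iso B' B G)

theorem lBih : LBih B' B φ.q := R273.Fam_835.lBih_of_inv φ.hq φ.hr φ.rq

theorem pre_eq (S : Set M) : φ.q ⁻¹' S = φ.r '' S := by
  ext y
  exact ⟨fun h => ⟨_, h, φ.rq y⟩, by rintro ⟨x, hx, rfl⟩; rwa [mem_preimage, φ.qr]⟩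

theorem img_eq (S : Set N) : φ.q '' S = φ.r ⁻¹' S := by
  ext x
  exact ⟨by rintro ⟨y, hy, rfl⟩; rwa [mem_preimage, φ.rq], fun h => ⟨_, h, φ.qr x⟩⟩

theorem sthM {S : Set M} (h : SThM B S) : SThM B' (φ.q ⁻¹' S) := by
  have h1 : HA.Bih (HA.of B) (HA.of B') univ univ φ.r φ.q :=
    HA.bih_univ (Brg.holMap_iff.1 φ.hr) (Brg.holMap_iff.1 φ.hq) φ.qr φ.rq
  have h2 := h1.cov (Brg.cov_iff_sthM.2 h)
  rw [univ_inter] at h2
  exact Brg.cov_iff_sthM.1 h2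

theorem anM {Z : Set N} (h : AnM B' Z) : AnM B (φ.r ⁻¹' Z) := by
  intro x
  obtain ⟨U, hU, hx, k, f, hf, h1⟩ := h (φ.r x)
  refine ⟨φ.r ⁻¹' U, hU.preimage φ.hr.cont, hx, k, fun j y => f j (φ.r y), fun j i => ?_,
    fun y hy => h1 _ hy⟩
  refine holAt_of_hm fun y _ hy => hm_pull φ.hr ?_
  obtain ⟨l, hl⟩ := B'.cover (φ.r y)
  exact hm_of_holAt (hf j l) hU hl hy

theorem pb_ne {i : B'.ι} {j : B.ι} {y : N} (hi : y ∈ (B'.e i).source)
    (hj : φ.q y ∈ (B.e j).source) {u : FI n → ℂ} (hu : u ≠ 0) :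
    Gam (Jp B' B φ.q i j y)ᵀ *ᵥ u ≠ 0 := by
  intro h0
  apply hu
  have hi' : φ.r (φ.q y) ∈ (B'.e i).source := by rwa [φ.rq]
  have h1 := Jp_comp φ.hq φ.hr (i := j) (j := i) (l := j) hj hi' (by rwa [φ.qr])
  have h2 : (fun x => φ.q (φ.r x)) = id := funext φ.qr
  rw [h2, φ.rq] at h1
  have h3 : Jp B B id j j (φ.q y) = 1 := J_self j hj
  rw [← Matrix.one_mulVec u, ← Gam_one, ← Matrix.transpose_one, ← h3, ← h1, Matrix.transpose_mul,
    Gam_mul, ← Matrix.mulVec_mulVec, h0, Matrix.mulVec_zero]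

/-- the pulled back tube structure -/
def pull (𝒯 : Tube B G p) : Tube B' G p where
  M0 := φ.q ⁻¹' 𝒯.M0
  opn := 𝒯.opn.preimage φ.hq.cont
  thin := φ.sthM 𝒯.thin
  inv g x hx := by
    rw [mem_preimage, φ.eqv]
    exact 𝒯.inv g _ hx
  W y := φ.q ⁻¹' 𝒯.W (φ.q y)
  W_mem x hx := 𝒯.W_mem _ hx
  W_eq x hx y hy := by rw [𝒯.W_eq _ hx _ hy]
  W_inv g x hx := by
    rw [φ.eqv, 𝒯.W_inv g _ hx]
    ext y
    rw [mem_preimage, mem_smul_set_iff_inv_smul_mem, mem_smul_set_iff_inv_smul_mem, mem_preimage,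
      φ.eqv]
  W_conn x hx := by
    rw [φ.pre_eq]
    exact (𝒯.W_conn _ hx).image _ φ.hr.cont.continuousOn
  T x := φ.q ⁻¹' 𝒯.T (φ.q x)
  π x y := 𝒯.π (φ.q x) (φ.q y)
  T_opn x hx := (𝒯.T_opn _ hx).preimage φ.hq.cont
  T_mem x hx := 𝒯.T_mem _ hx
  T_sub x hx _ hy := 𝒯.T_sub _ hx hy
  π_hol x hx := Brg.holV_of fun y hy =>
    (Brg.tube_subm 𝒯 hx hy).hol.comp (Brg.holMap_iff.1 φ.hq y)
  π_cont x hx := (𝒯.π_cont _ hx).comp φ.hq.cont.continuousOn fun _ hy => hy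
  π_subm x hx := Brg.crit_eq_empty fun y hy =>
    (Brg.tube_subm 𝒯 hx hy).comp (Brg.subm_of_lBih φ.lBih y)
  π_self x hx := 𝒯.π_self _ hx
  π_img x hx := by
    rw [← 𝒯.π_img _ hx, φ.pre_eq, image_image]
    simp only [φ.qr]
  π_prop x hx r hr := by
    have h := (𝒯.π_prop _ hx r hr).image φ.hr.cont
    rw [← φ.pre_eq] at h
    exact h
  π_fib x hx y hy := by
    rw [𝒯.π_fib _ hx _ hy]
    rfl
  mer x := by
    obtain ⟨j, U, τ, hx, h⟩ := exists_mer 𝒯 (φ.q x)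
    obtain ⟨i, hi⟩ := B'.cover x
    refine ⟨i, (B'.e i).source ∩ φ.q ⁻¹' U, fun y => Gam (Jp B' B φ.q i j y)ᵀ *ᵥ τ (φ.q y),
      (B'.e i).open_source.inter (h.op.preimage φ.hq.cont), ⟨hi, hx⟩, inter_subset_left,
      fun S => holAt_of_hm fun y _ hy => hm_pb φ.hq hy.1 (h.sub hy.2) (h.hm hy.2) S,
      fun y => Jet.Tb.Dg.Gam (h.deg (φ.q y)) _, fun V hV hne hVU => ?_, fun x' hx' y hy => ?_⟩
    · obtain ⟨y, hy, h1⟩ := h.nf (φ.r ⁻¹' V) (hV.preimage φ.hr.cont)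
        (by rw [← φ.img_eq]; exact hne.image _) fun y hy => by
          have := (hVU hy).2
          rwa [mem_preimage, φ.qr] at this
      exact ⟨φ.r y, hy, φ.pb_ne (hVU hy).1 (h.sub (hVU hy).2) (by rwa [φ.qr])⟩
    · obtain ⟨c, hc⟩ := h.gen _ hx' _ ⟨hy.1.2, hy.2⟩
      refine ⟨c, ?_⟩
      rw [dW_comp φ.hq hy.1.1 (h.sub hy.1.2)
        (tube_an 𝒯 hx' hy.2 (h.sub hy.1.2)).differentiableAt, ← Matrix.mulVec_smul, ← hc]
  Bad := φ.q ⁻¹' 𝒯.Bad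
  bad_thin := φ.sthM 𝒯.bad_thin
  bad_inv g x hx := by
    rw [mem_preimage, φ.eqv]
    exact 𝒯.bad_inv g _ hx
  max x hx hb Z hK hc hZ hxZ y hy :=
    𝒯.max _ hx hb (φ.q '' Z) (hK.image φ.hq.cont) (hc.image _ φ.hq.cont.continuousOn)
      (by rw [φ.img_eq]; exact φ.anM hZ) (mem_image_of_mem _ hxZ) (mem_image_of_mem _ hy)

theorem pull_M0 (𝒯 : Tube B G p) : (φ.pull 𝒯).M0 = φ.q ⁻¹' 𝒯.M0 := rfl

theorem pull_T (𝒯 : Tube B G p) (x : N) : (φ.pull 𝒯).T x = φ.q ⁻¹' 𝒯.T (φ.q x) := rfl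

theorem pull_π (𝒯 : Tube B G p) (x : N) : (φ.pull 𝒯).π x = fun y => 𝒯.π (φ.q x) (φ.q y) := rfl

end Iso

end

end Crest.Agent.X261.Fol
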